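import Vale.Agent.P286.H841.Sparse
import Mathlib.LinearAlgebra.Matrix.NonsingularInverse
import Mathlib.Data.Matrix.Reflection

/-!
# P286: structure constants of the simple Lie algebra of type `G₂`

Basis `h₁, h₂, e₁, …, e₆, f₁, …, f₆` (in this order), `e₁` a short and `e₂` a long simple root
vector, `hᵢ = [eᵢ, fᵢ]`, `[h₁, e₁] = 2 e₁`, `[h₁, e₂] = -3 e₂`, `[h₂, e₁] = -e₁`,
`[h₂, e₂] = 2 e₂`, `e₃ = [e₁, e₂]`, `2 e₄ = [e₁, e₃]`, `3 e₅ = [e₁, e₄]`, `e₆ = [e₂, e₅]`, the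
same for `f`.
-/

namespace Vale.Agent.P286.H841

/-- The table of the brackets of the basis vectors. -/
def tabG2 : List (List (List (Fin 14 × ℤ))) :=
  [[[], [], [(2, 2)], [(3, -3)], [(4, -1)], [(5, 1)], [(6, 3)], [], [(8, -2)], [(9, 3)], [(10,
    1)], [(11, -1)], [(12, -3)], []],
   [[], [], [(2, -1)], [(3, 2)], [(4, 1)], [], [(6, -1)], [(7, 1)], [(8, 1)], [(9, -2)], [(10,
    -1)], [], [(12, 1)], [(13, -1)]],
   [[(2, -2)], [(2, 1)], [], [(4, 1)], [(5, 2)], [(6, 3)], [], [], [(0, 1)], [], [(9, 3)],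
    [(10, 2)], [(11, 1)], []],
   [[(3, 3)], [(3, -2)], [(4, -1)], [], [], [], [(7, 1)], [], [], [(1, 1)], [(8, -1)], [], [],
    [(12, 1)]],
   [[(4, 1)], [(4, -1)], [(5, -2)], [], [], [(7, -3)], [], [], [(3, -3)], [(2, 1)], [(0, -1),
    (1, -3)], [(8, 2)], [], [(11, 1)]],
   [[(5, -1)], [], [(6, -3)], [], [(7, 3)], [], [], [], [(4, -2)], [], [(2, -2)], [(0, 2), (1,
    3)], [(8, -1)], [(10, 1)]],
   [[(6, -3)], [(6, 1)], [], [(7, -1)], [], [], [], [], [(5, -1)], [], [], [(2, 1)], [(0, -1),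
    (1, -1)], [(9, 1)]],
   [[], [(7, -1)], [], [], [], [], [], [], [], [(6, -1)], [(5, -1)], [(4, -1)], [(3, -1)], [(0,
    1), (1, 2)]],
   [[(8, 2)], [(8, -1)], [(0, -1)], [], [(3, 3)], [(4, 2)], [(5, 1)], [], [], [(10, 1)], [(11,
    2)], [(12, 3)], [], []],
   [[(9, -3)], [(9, 2)], [], [(1, -1)], [(2, -1)], [], [], [(6, 1)], [(10, -1)], [], [], [],
    [(13, 1)], []],
   [[(10, -1)], [(10, 1)], [(9, -3)], [(8, 1)], [(0, 1), (1, 3)], [(2, 2)], [], [(5, 1)], [(11,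
    -2)], [], [], [(13, -3)], [], []],
   [[(11, 1)], [], [(10, -2)], [], [(8, -2)], [(0, -2), (1, -3)], [(2, -1)], [(4, 1)], [(12,
    -3)], [], [(13, 3)], [], [], []],
   [[(12, 3)], [(12, -1)], [(11, -1)], [], [], [(8, 1)], [(0, 1), (1, 1)], [(3, 1)], [], [(13,
    -1)], [], [], [], []],
   [[], [(13, 1)], [], [(12, -1)], [(11, -1)], [(10, -1)], [(9, -1)], [(0, -1), (1, -2)], [],
    [], [], [], [], []]]

/-- The bracket of two basis vectors of `G₂`. -/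
def brG2 (i j : Fin 14) : List (Fin 14 × ℤ) := (tabG2.getD i []).getD j []

/-- The structure constants of `G₂`: the coefficient of the basis vector `k` in the bracket of
the basis vectors `i` and `j`. -/
def cG2 (i j k : Fin 14) : ℤ := cf (brG2 i j) k

theorem cG2_antisymm : ∀ i j k : Fin 14, cG2 i j k = -cG2 j i k := by
  decide +kernel

theorem jacL_G2 : ∀ i j k : Fin 14, i < j → j < k → zeroL (jacL brG2 i j k) = true := by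
  decide +kernel

/-- The Jacobi identity. -/
theorem cG2_jacobi (i j k l : Fin 14) :
    ∑ p, (cG2 i j p * cG2 p k l + cG2 j k p * cG2 p i l + cG2 k i p * cG2 p j l) = 0 := by
  have h : ∀ i j k l : Fin 14, i < j → j < k → jac cG2 i j k l = 0 := by
    intro i j k l hij hjk
    have h1 := cf_eq_zero (jacL_G2 i j k hij hjk) l
    rwa [cf_jacL] at h1
  exact jac_of_lt cG2_antisymm h i j k l

/-- The Killing form. -/
def killG2 : Matrix (Fin 14) (Fin 14) ℤ := Matrix.of fun i j => ∑ p, ∑ q, cG2 i p q * cG2 j q p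

/-- The Killing form, explicitly. -/
def killE : Matrix (Fin 14) (Fin 14) ℤ :=
  !![48, -24, 0, 0, 0, 0, 0, 0, 0, 0, 0, 0, 0, 0;
    -24, 16, 0, 0, 0, 0, 0, 0, 0, 0, 0, 0, 0, 0;
    0, 0, 0, 0, 0, 0, 0, 0, 24, 0, 0, 0, 0, 0;
    0, 0, 0, 0, 0, 0, 0, 0, 0, 8, 0, 0, 0, 0;
    0, 0, 0, 0, 0, 0, 0, 0, 0, 0, -24, 0, 0, 0;
    0, 0, 0, 0, 0, 0, 0, 0, 0, 0, 0, 24, 0, 0;
    0, 0, 0, 0, 0, 0, 0, 0, 0, 0, 0, 0, -8, 0;
    0, 0, 0, 0, 0, 0, 0, 0, 0, 0, 0, 0, 0, 8;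
    0, 0, 24, 0, 0, 0, 0, 0, 0, 0, 0, 0, 0, 0;
    0, 0, 0, 8, 0, 0, 0, 0, 0, 0, 0, 0, 0, 0;
    0, 0, 0, 0, -24, 0, 0, 0, 0, 0, 0, 0, 0, 0;
    0, 0, 0, 0, 0, 24, 0, 0, 0, 0, 0, 0, 0, 0;
    0, 0, 0, 0, 0, 0, -8, 0, 0, 0, 0, 0, 0, 0;
    0, 0, 0, 0, 0, 0, 0, 8, 0, 0, 0, 0, 0, 0]

theorem killG2_eq : killG2 = killE := by
  have h : ∀ i j : Fin 14, (killG2 i j - killE i j : ℤ) = 0 := by
    decide +kernel
  ext i j
  exact sub_eq_zero.1 (h i j)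

/-- `24` times the inverse of the Killing form. -/
def killG2' : Matrix (Fin 14) (Fin 14) ℤ :=
  !![2, 3, 0, 0, 0, 0, 0, 0, 0, 0, 0, 0, 0, 0;
    3, 6, 0, 0, 0, 0, 0, 0, 0, 0, 0, 0, 0, 0;
    0, 0, 0, 0, 0, 0, 0, 0, 1, 0, 0, 0, 0, 0;
    0, 0, 0, 0, 0, 0, 0, 0, 0, 3, 0, 0, 0, 0;
    0, 0, 0, 0, 0, 0, 0, 0, 0, 0, -1, 0, 0, 0;
    0, 0, 0, 0, 0, 0, 0, 0, 0, 0, 0, 1, 0, 0;
    0, 0, 0, 0, 0, 0, 0, 0, 0, 0, 0, 0, -3, 0;
    0, 0, 0, 0, 0, 0, 0, 0, 0, 0, 0, 0, 0, 3;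
    0, 0, 1, 0, 0, 0, 0, 0, 0, 0, 0, 0, 0, 0;
    0, 0, 0, 3, 0, 0, 0, 0, 0, 0, 0, 0, 0, 0;
    0, 0, 0, 0, -1, 0, 0, 0, 0, 0, 0, 0, 0, 0;
    0, 0, 0, 0, 0, 1, 0, 0, 0, 0, 0, 0, 0, 0;
    0, 0, 0, 0, 0, 0, -3, 0, 0, 0, 0, 0, 0, 0;
    0, 0, 0, 0, 0, 0, 0, 3, 0, 0, 0, 0, 0, 0]

theorem killG2_mul : killG2 * killG2' = (24 : ℤ) • (1 : Matrix (Fin 14) (Fin 14) ℤ) := by
  have h : ∀ i j : Fin 14, (∑ k, killE i k * killG2' k j) = if i = j then 24 else 0 := by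
    decide +kernel
  rw [killG2_eq]
  ext i j
  rw [Matrix.mul_apply, h, Matrix.smul_apply, Matrix.one_apply]
  split_ifs <;> rfl

/-- The Killing form is nondegenerate. -/
theorem killG2_det : killG2.det ≠ 0 := by
  intro h
  have h1 := congrArg Matrix.det killG2_mul
  rw [Matrix.det_mul, h, zero_mul, Matrix.det_smul, Matrix.det_one, mul_one] at h1
  exact absurd h1.symm (pow_ne_zero _ (by norm_num))

end Vale.Agent.P286.H841
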