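import Mathlib.Data.Matrix.Mul
import Mathlib.Data.Fintype.BigOperators
import Mathlib.Tactic.Ring
import Mathlib.Tactic.LinearCombination

/-!
# P286: structure constants given by sparse tables, a check of the Jacobi identity

A bracket is given by `B : ι → ι → List (ι × ℤ)`; `cf (B i j) k` is the coefficient of the basis
vector `k` in the bracket of the basis vectors `i`, `j`.
-/

namespace Vale.Agent.P286.H841

variable {ι : Type} [DecidableEq ι]

/-- The coefficient of `k` in a formal sum. -/
def cf (L : List (ι × ℤ)) (k : ι) : ℤ := (L.map fun t => if t.1 = k then t.2 else 0).sum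

theorem cf_nil (k : ι) : cf ([] : List (ι × ℤ)) k = 0 := rfl

theorem cf_cons (t : ι × ℤ) (L : List (ι × ℤ)) (k : ι) :
    cf (t :: L) k = (if t.1 = k then t.2 else 0) + cf L k := rfl

theorem cf_append (L M : List (ι × ℤ)) (k : ι) : cf (L ++ M) k = cf L k + cf M k := by
  simp [cf]

/-- The bracket of a formal sum with a basis vector. -/
def brL (B : ι → ι → List (ι × ℤ)) (L : List (ι × ℤ)) (k : ι) : List (ι × ℤ) :=
  L.flatMap fun t => (B t.1 k).map fun s => (s.1, t.2 * s.2)

theorem cf_map_mul (x : ℤ) (L : List (ι × ℤ)) (k : ι) :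
    cf (L.map fun s => (s.1, x * s.2)) k = x * cf L k := by
  induction L with
  | nil => simp [cf_nil]
  | cons s L ih =>
    rw [List.map_cons, cf_cons, cf_cons, ih, mul_add]
    congr 1
    split_ifs <;> simp

theorem cf_brL [Fintype ι] (B : ι → ι → List (ι × ℤ)) (L : List (ι × ℤ)) (k l : ι) :
    cf (brL B L k) l = ∑ p, cf L p * cf (B p k) l := by
  induction L with
  | nil => simp [brL, cf_nil]
  | cons t L ih =>
    have h1 : brL B (t :: L) k = ((B t.1 k).map fun s => (s.1, t.2 * s.2)) ++ brL B L k := rfl
    rw [h1, cf_append, ih, cf_map_mul]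
    simp only [cf_cons, add_mul, Finset.sum_add_distrib, ite_mul, zero_mul,
      Finset.sum_ite_eq, Finset.mem_univ, if_true]

/-- The formal sum of the Jacobi identity. -/
def jacL (B : ι → ι → List (ι × ℤ)) (i j k : ι) : List (ι × ℤ) :=
  brL B (B i j) k ++ (brL B (B j k) i ++ brL B (B k i) j)

theorem cf_eq_zero_of_notMem {L : List (ι × ℤ)} {k : ι} (h : ∀ t ∈ L, t.1 ≠ k) : cf L k = 0 := by
  induction L with
  | nil => rfl
  | cons t L ih =>
    rw [cf_cons, if_neg (h t (by simp)), ih fun s hs => h s (by simp [hs]), zero_add]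

/-- The check: all coefficients which can be different from `0` are `0`. -/
def zeroL (L : List (ι × ℤ)) : Bool := L.all fun t => cf L t.1 == 0

theorem cf_eq_zero {L : List (ι × ℤ)} (h : zeroL L = true) (k : ι) : cf L k = 0 := by
  by_cases hk : ∀ t ∈ L, t.1 ≠ k
  · exact cf_eq_zero_of_notMem hk
  · push Not at hk
    obtain ⟨t, ht, rfl⟩ := hk
    have := List.all_eq_true.1 h t ht
    simpa using this

/-- The left side of the Jacobi identity. -/
def jac [Fintype ι] (c : ι → ι → ι → ℤ) (i j k l : ι) : ℤ :=
  ∑ p, (c i j p * c p k l + c j k p * c p i l + c k i p * c p j l)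

theorem cf_jacL [Fintype ι] (B : ι → ι → List (ι × ℤ)) (i j k l : ι) :
    cf (jacL B i j k) l = jac (fun i j k => cf (B i j) k) i j k l := by
  simp only [jacL, cf_append, cf_brL, jac, Finset.sum_add_distrib, add_assoc]

omit [DecidableEq ι] in
theorem jac_rot [Fintype ι] (c : ι → ι → ι → ℤ) (i j k l : ι) : jac c i j k l = jac c j k i l := by
  unfold jac
  exact Finset.sum_congr rfl fun p _ => by ring

omit [DecidableEq ι] in
theorem jac_swap [Fintype ι] {c : ι → ι → ι → ℤ} (ha : ∀ i j k, c i j k = -c j i k)
    (i j k l : ι) : jac c i j k l = -jac c j i k l := by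
  unfold jac
  rw [← Finset.sum_neg_distrib]
  refine Finset.sum_congr rfl fun p _ => ?_
  rw [ha i j p, ha j k p, ha k i p]
  ring

omit [DecidableEq ι] in
theorem jac_self [Fintype ι] {c : ι → ι → ι → ℤ} (ha : ∀ i j k, c i j k = -c j i k)
    (i k l : ι) : jac c i i k l = 0 := by
  have := jac_swap ha i i k l
  omega

/-- The Jacobi identity holds if it holds for increasing triples. -/
theorem jac_of_lt {n : ℕ} {c : Fin n → Fin n → Fin n → ℤ} (ha : ∀ i j k, c i j k = -c j i k)
    (h : ∀ i j k l, i < j → j < k → jac c i j k l = 0) (i j k l : Fin n) :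
    jac c i j k l = 0 := by
  have h2 : ∀ i j k : Fin n, i < j → jac c i j k l = 0 := by
    intro i j k hij
    rcases lt_trichotomy j k with hjk | rfl | hjk
    · exact h i j k l hij hjk
    · rw [jac_rot, jac_self ha]
    · rcases lt_trichotomy i k with hik | rfl | hik
      · rw [jac_rot, jac_swap ha, jac_rot, jac_rot, h i k j l hik hjk, neg_zero]
      · rw [jac_rot, jac_rot, jac_self ha]
      · rw [jac_rot, jac_rot, h k i j l hik hij]
  rcases lt_trichotomy i j with hij | rfl | hij
  · exact h2 i j k hij
  · exact jac_self ha i k l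
  · rw [jac_swap ha, h2 j i k hij, neg_zero]

end Vale.Agent.P286.H841
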